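import Vale.Agent.P251EJ.DefsS

/-!
# P251EJ, row CHI: the collapse of the boundary of the cube
-/

open Set Topology Filter OnePoint

noncomputable section

namespace Vale.Agent.P251EJ9

open Vale.Agent.P251EJ

/-- the logistic function and its inverse -/
def sg (x : ℝ) : ℝ := (1 + Real.exp (-x))⁻¹

def lg (t : ℝ) : ℝ := -Real.log (t⁻¹ - 1)

theorem sg_mem (x : ℝ) : sg x ∈ Ioo (0 : ℝ) 1 := by
  have := Real.exp_pos (-x)
  exact ⟨inv_pos.2 (by linarith), inv_lt_one_of_one_lt₀ (by linarith)⟩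

theorem lg_sg (x : ℝ) : lg (sg x) = x := by simp [lg, sg]

theorem pos_of {t : ℝ} (h : t ∈ Ioo (0 : ℝ) 1) : 0 < t⁻¹ - 1 :=
  sub_pos.2 ((one_lt_inv₀ h.1).2 h.2)

theorem sg_lg {t : ℝ} (h : t ∈ Ioo (0 : ℝ) 1) : sg (lg t) = t := by
  simp [lg, sg, Real.exp_log (pos_of h)]

theorem cont_sg : Continuous sg :=
  (continuous_const.add (Real.continuous_exp.comp continuous_neg)).inv₀ fun x => by
    have := Real.exp_pos (-x)
    exact (by linarith : (0 : ℝ) < 1 + Real.exp (-x)).ne'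

theorem cont_lg {t : ℝ} (h : t ∈ Ioo (0 : ℝ) 1) : ContinuousAt lg t :=
  (((continuousAt_inv₀ h.1.ne').sub continuousAt_const).log (pos_of h).ne').neg

open Classical in
/-- the collapse map -/
def chi (n : ℕ) (t : Fin n → ℝ) : Sp n :=
  if ∀ i, t i ∈ Ioo (0 : ℝ) 1 then ((fun i => lg (t i) : Fin n → ℝ) : Sp n) else ∞

theorem cont_chi (n : ℕ) : Continuous (chi n) := by
  refine continuous_iff_continuousAt.2 fun t => ?_
  by_cases h : ∀ i, t i ∈ Ioo (0 : ℝ) 1
  · have e : ∀ᶠ s in 𝓝 t, ∀ i, s i ∈ Ioo (0 : ℝ) 1 :=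
      eventually_all.2 fun i => (continuous_apply i).continuousAt (isOpen_Ioo.mem_nhds (h i))
    have c : ContinuousAt (fun s : Fin n → ℝ => fun i => lg (s i)) t := continuousAt_pi.2 fun i =>
      (cont_lg (h i)).comp (f := fun s : Fin n → ℝ => s i) (continuous_apply i).continuousAt
    refine ContinuousAt.congr (f := fun s => ((fun i => lg (s i) : Fin n → ℝ) : Sp n))
      (continuous_coe.continuousAt.comp c) ?_
    filter_upwards [e] with s hs using (if_pos hs).symm
  · rw [ContinuousAt, show chi n t = ∞ from if_neg h]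
    refine hasBasis_nhds_infty.tendsto_right_iff.2 fun K hK => ?_
    have c : IsClosed ((fun (y : Fin n → ℝ) i => sg (y i)) '' K) :=
      (hK.2.image (continuous_pi fun i => cont_sg.comp (continuous_apply i))).isClosed
    filter_upwards [c.isOpen_compl.mem_nhds (x := t)
      (by rintro ⟨y, -, rfl⟩; exact h fun i => sg_mem _)] with s hs
    by_cases k : ∀ i, s i ∈ Ioo (0 : ℝ) 1
    · exact Or.inl ⟨_, fun m => hs ⟨_, m, funext fun i => sg_lg (k i)⟩, (if_pos k).symm⟩
    · exact Or.inr (if_neg k)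

/-- **ChiS.** -/
theorem chiS : ChiS := fun n =>
  ⟨lg, chi n, ⟨fun _ _ => trivial, fun s hs t ht e => by rw [← sg_lg hs, e, sg_lg ht],
    fun x _ => ⟨sg x, sg_mem x, lg_sg x⟩⟩, (cont_chi n).continuousOn, fun _ h => if_pos h,
    fun _ h => if_neg h⟩

end Vale.Agent.P251EJ9
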